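import Vale.Agent.P284.H377.Vec
import Vale.Agent.P284.H377.QF

/-!
# P284, package VL: the quadratic forms of forms and gradients
-/

open scoped Manifold ContDiff ComplexOrder Topology Matrix
open MeasureTheory Set Filter
open Vale.Agent.P272.K Vale.Agent.P272.K.INT Vale.Agent.P299.IX

noncomputable section

namespace Vale.Agent.P284.H377

variable {n : ℕ}

/-- the Hermitian product of forms times `det²` -/
def hp0 (W : Matrix (Fin n) (Fin n) ℂ) (u v : FI n → ℂ) : ℂ :=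
  W.det * W.det * pr (lam W⁻¹ *ᵥ u) v

/-- the corresponding form on gradients -/
def gb0 (W : Matrix (Fin n) (Fin n) ℂ) (X Y : Fin n → FI n → ℂ) : ℂ :=
  ∑ l, ∑ b, W⁻¹ b l * hp0 W (X b) (Y l)

def q1 (W : Matrix (Fin n) (Fin n) ℂ) (X : FI n → ℂ) : ℝ := (hp0 W X X).re

def q2 (W : Matrix (Fin n) (Fin n) ℂ) (X : Fin n → FI n → ℂ) : ℝ := (gb0 W X X).re

variable {W : Matrix (Fin n) (Fin n) ℂ} {w : Cm n → Matrix (Fin n) (Fin n) ℂ}

theorem hp0_eq (W : Matrix (Fin n) (Fin n) ℂ) (u v : FI n → ℂ) :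
    hp0 W u v = G.hp (fun _ => W.det) (fun _ => W) 0 u v := rfl

theorem kat_const (hW : W.PosDef) (z : Cm n) : KAt (fun _ => W) z where
  smooth := Eventually.of_forall fun _ _ _ => contDiffAt_const
  pos := Eventually.of_forall fun _ => hW
  closed := Eventually.of_forall fun y i j k => by rw [C2.dz_const, C2.dz_const]

theorem lat_const (hW : W.PosDef) (z : Cm n) : G.LAt (fun _ => W.det) (fun _ _ => 0) z where
  smooth := Eventually.of_forall fun _ => contDiffAt_const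
  pos := Eventually.of_forall fun _ => hW.det_pos
  conn := Eventually.of_forall fun y l => by rw [C2.dz_const]; simp

theorem hp0_real (hW : W.PosDef) (u : FI n → ℂ) : hp0 W u u = (q1 W u : ℂ) := by
  have h := G.hp_self_nonneg (lat_const hW 0) (kat_const hW 0) u
  rw [← hp0_eq] at h
  have h2 := (Complex.le_def.1 h).2
  apply Complex.ext
  · rfl
  · rw [Complex.ofReal_im]; exact h2.symm

theorem q1_nonneg (hW : W.PosDef) (u : FI n → ℂ) : 0 ≤ q1 W u :=
  (Complex.le_def.1 (G.hp_self_nonneg (lat_const hW 0) (kat_const hW 0) u)).1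

theorem q1_pos (hW : W.PosDef) {u : FI n → ℂ} (hu : u ≠ 0) : 0 < q1 W u :=
  (Complex.lt_def.1 (G.hp_self_pos (lat_const hW 0) (kat_const hW 0) hu)).1

theorem gb0_nonneg (hW : W.PosDef) (X : Fin n → FI n → ℂ) : 0 ≤ gb0 W X X := by
  have h1 := G.sum_hp_nonneg (lat_const hW 0) (kat_const hW 0) hW.inv.posSemidef X
  rw [gb0, Finset.sum_comm]
  exact h1

theorem q2_nonneg (hW : W.PosDef) (X : Fin n → FI n → ℂ) : 0 ≤ q2 W X :=
  (Complex.le_def.1 (gb0_nonneg hW X)).1

theorem q2_pos (hW : W.PosDef) {X : Fin n → FI n → ℂ} (hX : X ≠ 0) : 0 < q2 W X := by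
  have h1 : gb0 W X X ≠ 0 := by
    intro h0
    apply hX
    rw [gb0, Finset.sum_comm] at h0
    funext b
    exact G.eq_zero_of_sum_hp (lat_const hW 0) (kat_const hW 0) hW.inv (X := X) h0 b
  exact (Complex.lt_def.1 (lt_of_le_of_ne (gb0_nonneg hW X) h1.symm)).1

theorem hp0_smul (c d : ℂ) (u v : FI n → ℂ) :
    hp0 W (c • u) (d • v) = c * (starRingEnd ℂ) d * hp0 W u v := by
  rw [hp0_eq, G.hp_smul_left, G.hp_smul_right, ← hp0_eq]; ring

theorem q1_smul (c : ℂ) (u : FI n → ℂ) : q1 W (c • u) = ‖c‖ ^ 2 * q1 W u := by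
  have h : c * (starRingEnd ℂ) c = ((‖c‖ ^ 2 : ℝ) : ℂ) := by
    rw [Complex.mul_conj']; push_cast; rfl
  rw [q1, hp0_smul, h, Complex.re_ofReal_mul]
  rfl

theorem q2_smul (c : ℂ) (X : Fin n → FI n → ℂ) : q2 W (c • X) = ‖c‖ ^ 2 * q2 W X := by
  have h : c * (starRingEnd ℂ) c = ((‖c‖ ^ 2 : ℝ) : ℂ) := by
    rw [Complex.mul_conj']; push_cast; rfl
  have h1 : gb0 W (c • X) (c • X) = ((‖c‖ ^ 2 : ℝ) : ℂ) * gb0 W X X := by
    unfold gb0
    rw [Finset.mul_sum]
    refine Finset.sum_congr rfl fun l _ => ?_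
    rw [Finset.mul_sum]
    refine Finset.sum_congr rfl fun b _ => ?_
    rw [Pi.smul_apply, Pi.smul_apply, hp0_smul, h]; ring
  rw [q2, h1, Complex.re_ofReal_mul]
  rfl

theorem q2_add_le (hW : W.PosDef) (X Y : Fin n → FI n → ℂ) :
    q2 W (X + Y) ≤ 2 * q2 W X + 2 * q2 W Y := by
  have h1 : gb0 W (X + Y) (X + Y) + gb0 W (X - Y) (X - Y) = 2 * gb0 W X X + 2 * gb0 W Y Y := by
    unfold gb0
    rw [Finset.mul_sum, Finset.mul_sum, ← Finset.sum_add_distrib, ← Finset.sum_add_distrib]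
    refine Finset.sum_congr rfl fun l _ => ?_
    rw [Finset.mul_sum, Finset.mul_sum, ← Finset.sum_add_distrib, ← Finset.sum_add_distrib]
    refine Finset.sum_congr rfl fun b _ => ?_
    have hn : ∀ u v u' v' : FI n → ℂ, hp0 W (u + u') (v + v') + hp0 W (u - u') (v - v') =
        2 * hp0 W u v + 2 * hp0 W u' v' := by
      intro u v u' v'
      rw [sub_eq_add_neg, sub_eq_add_neg]
      simp only [hp0_eq, G.hp_add_left, G.hp_add_right, G.hp_neg_left, G.hp_neg_right]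
      ring
    simp only [Pi.add_apply, Pi.sub_apply]
    linear_combination (W⁻¹ b l) * hn (X b) (X l) (Y b) (Y l)
  have h2 := q2_nonneg hW (X - Y)
  have h3 := congrArg Complex.re h1
  simp only [Complex.add_re, Complex.mul_re, Complex.re_ofNat, Complex.im_ofNat, zero_mul,
    sub_zero] at h3
  unfold q2 at *
  linarith

theorem q2_tensor (hW : W.PosDef) (ξ : Fin n → ℂ) (x : FI n → ℂ) :
    q2 W (fun b => ξ b • x) =
      (∑ l, ∑ b, W⁻¹ b l * ξ b * (starRingEnd ℂ) (ξ l)).re * q1 W x := by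
  have h1 : gb0 W (fun b => ξ b • x) (fun b => ξ b • x) =
      (∑ l, ∑ b, W⁻¹ b l * ξ b * (starRingEnd ℂ) (ξ l)) * (q1 W x : ℂ) := by
    unfold gb0
    rw [Finset.sum_mul]
    refine Finset.sum_congr rfl fun l _ => ?_
    rw [Finset.sum_mul]
    refine Finset.sum_congr rfl fun b _ => ?_
    rw [hp0_smul, hp0_real hW]; ring
  rw [q2, h1, Complex.re_mul_ofReal]

theorem hp_exp (E : Cm n → ℝ) (z : Cm n) (u v : FI n → ℂ) :
    G.hp (fun y => (E y : ℂ) * (w y).det) w z u v = (E z : ℂ) * hp0 (w z) u v := by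
  simp only [G.hp, G.rho, hp0, Ld]; ring

theorem gradb_exp (E : Cm n → ℝ) (z : Cm n) (a d : Cm n → FI n → ℂ) :
    G.gradb (fun y => (E y : ℂ) * (w y).det) w a d z =
      (E z : ℂ) * gb0 (w z) (fun b => DVb b a z) (fun b => DVb b d z) := by
  simp only [G.gradb, gb0, hp_exp, Finset.mul_sum]
  refine Finset.sum_congr rfl fun l _ => Finset.sum_congr rfl fun b _ => ?_
  ring

/-- the matrix of `hp0` -/
theorem pr_smul_lam (W : Matrix (Fin n) (Fin n) ℂ) (u v : FI n → ℂ) :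
    pr (((W.det * W.det) • lam W⁻¹) *ᵥ u) v = hp0 W u v := by
  rw [Matrix.smul_mulVec, pr_smul_left]; rfl

theorem posSemidef_smul_lam (hW : W.PosDef) : ((W.det * W.det) • lam W⁻¹).PosSemidef :=
  (lam_posDef hW.inv).posSemidef.smul (mul_nonneg hW.det_pos.le hW.det_pos.le)

end Vale.Agent.P284.H377
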