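import Vale.Agent.P284.H377.Alg

/-!
# P284, package VL: continuity and local comparison
-/

open scoped Manifold ContDiff ComplexOrder Topology Matrix
open MeasureTheory Set Filter
open Vale.Agent.P272.K Vale.Agent.P272.K.INT Vale.Agent.P299.IX

noncomputable section

namespace Vale.Agent.P284.H377

variable {n : ℕ} {U : Set (Cm n)} {w : Cm n → Matrix (Fin n) (Fin n) ℂ}

/-- a smooth metric on `U` -/
structure Met (w : Cm n → Matrix (Fin n) (Fin n) ℂ) (U : Set (Cm n)) : Prop where
  op : IsOpen U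
  sm : ∀ i j, ContDiffOn ℝ ∞ (fun z => w z i j) U
  pos : ∀ z ∈ U, (w z).PosDef

theorem Met.mc (h : Met w U) {z : Cm n} (hz : z ∈ U) : C2.MC ∞ w z := fun i j =>
  (h.sm i j).contDiffAt (h.op.mem_nhds hz)

theorem Met.det_cont (h : Met w U) : ContinuousOn (fun z => (w z).det) U := fun z hz =>
  ((h.mc hz).det).continuousAt.continuousWithinAt

theorem Met.inv_mc (h : Met w U) {z : Cm n} (hz : z ∈ U) : C2.MC ∞ (fun y => (w y)⁻¹) z :=
  (h.mc hz).inv (h.pos z hz).det_pos.ne'

theorem Met.inv_cont (h : Met w U) (i j : Fin n) : ContinuousOn (fun z => (w z)⁻¹ i j) U :=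
  fun z hz => (h.inv_mc hz i j).continuousAt.continuousWithinAt

theorem Met.lam_cont (h : Met w U) (I J : FI n) :
    ContinuousOn (fun z => lam (w z)⁻¹ I J) U :=
  fun z hz => (MC_lam (h.inv_mc hz) I J).continuousAt.continuousWithinAt

theorem Met.hp0_cont (h : Met w U) {T : Type*} [TopologicalSpace T] {S : Set T} {f : T → Cm n}
    {X Y : T → FI n → ℂ} (hf : ContinuousOn f S) (hfS : MapsTo f S U) (hX : ContinuousOn X S)
    (hY : ContinuousOn Y S) : ContinuousOn (fun t => hp0 (w (f t)) (X t) (Y t)) S := by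
  have h1 : ContinuousOn (fun t => (w (f t)).det) S := h.det_cont.comp hf hfS
  refine (h1.mul h1).mul ?_
  simp only [pr, Matrix.mulVec, dotProduct]
  refine continuousOn_finsetSum _ fun I _ => ContinuousOn.mul ?_ ?_
  · refine continuousOn_finsetSum _ fun J _ => ContinuousOn.mul ?_ ?_
    · exact (h.lam_cont I J).comp hf hfS
    · exact continuousOn_pi.1 hX J
  · exact Complex.continuous_conj.comp_continuousOn (continuousOn_pi.1 hY I)

theorem Met.gb0_cont (h : Met w U) {T : Type*} [TopologicalSpace T] {S : Set T} {f : T → Cm n}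
    {X Y : T → Fin n → FI n → ℂ} (hf : ContinuousOn f S) (hfS : MapsTo f S U)
    (hX : ContinuousOn X S) (hY : ContinuousOn Y S) :
    ContinuousOn (fun t => gb0 (w (f t)) (X t) (Y t)) S := by
  unfold gb0
  refine continuousOn_finsetSum _ fun l _ => continuousOn_finsetSum _ fun b _ =>
    ContinuousOn.mul ((h.inv_cont b l).comp hf hfS) ?_
  exact h.hp0_cont hf hfS (continuousOn_pi.1 hX b) (continuousOn_pi.1 hY l)

theorem Met.q1_cont (h : Met w U) {T : Type*} [TopologicalSpace T] {S : Set T} {f : T → Cm n}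
    {X : T → FI n → ℂ} (hf : ContinuousOn f S) (hfS : MapsTo f S U) (hX : ContinuousOn X S) :
    ContinuousOn (fun t => q1 (w (f t)) (X t)) S :=
  Complex.continuous_re.comp_continuousOn (h.hp0_cont hf hfS hX hX)

theorem Met.q2_cont (h : Met w U) {T : Type*} [TopologicalSpace T] {S : Set T} {f : T → Cm n}
    {X : T → Fin n → FI n → ℂ} (hf : ContinuousOn f S) (hfS : MapsTo f S U)
    (hX : ContinuousOn X S) : ContinuousOn (fun t => q2 (w (f t)) (X t)) S :=
  Complex.continuous_re.comp_continuousOn (h.gb0_cont hf hfS hX hX)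

/-- **local comparison**: at points that are close to each other and to `P`, the metric and the
quadratic forms agree up to a factor `2` -/
theorem Met.compare (h : Met w U) {P : Set (Cm n)} (hP : IsCompact P) (hPU : P ⊆ U) :
    ∃ δ > 0, ∀ z z', (∃ p ∈ P, dist z p < δ ∧ dist z' p < δ) → z ∈ U ∧ z' ∈ U ∧
      (∀ X, q1 (w z) X ≤ 2 * q1 (w z') X) ∧ (∀ X, q2 (w z) X ≤ 2 * q2 (w z') X) ∧
      ((2 : ℂ) • w z' - w z).PosSemidef ∧ (w z).det.re ≤ 2 * (w z').det.re := by
  obtain ⟨δ₁, hδ₁, h1⟩ := exists_unif hP h.op hPU (fun z (X : FI n → ℂ) => q1 (w z) X)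
    (h.q1_cont continuousOn_fst (fun p hp => hp.1) continuousOn_snd)
    (fun z hz X hX => q1_pos (h.pos z hz) hX) (fun z X c => by
      have := q1_smul (W := w z) (c : ℂ) X
      rw [Complex.norm_real, Real.norm_eq_abs, sq_abs] at this
      exact this)
  obtain ⟨δ₂, hδ₂, h2⟩ := exists_unif hP h.op hPU (fun z (X : Fin n → FI n → ℂ) => q2 (w z) X)
    (h.q2_cont continuousOn_fst (fun p hp => hp.1) continuousOn_snd)
    (fun z hz X hX => q2_pos (h.pos z hz) hX) (fun z X c => by
      have := q2_smul (W := w z) (c : ℂ) X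
      rw [Complex.norm_real, Real.norm_eq_abs, sq_abs] at this
      exact this)
  obtain ⟨δ₃, hδ₃, h3⟩ := exists_unif hP h.op hPU
    (fun z (x : Fin n → ℂ) => (star x ⬝ᵥ (w z *ᵥ x)).re)
    (by
      refine Complex.continuous_re.comp_continuousOn ?_
      simp only [dotProduct, Matrix.mulVec, Pi.star_apply]
      refine continuousOn_finsetSum _ fun i _ => ContinuousOn.mul ?_
        (continuousOn_finsetSum _ fun j _ => ContinuousOn.mul ?_ ?_)
      · exact (continuous_star.comp ((continuous_apply i).comp continuous_snd)).continuousOn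
      · exact ((h.sm i j).continuousOn).comp continuousOn_fst fun p hp => hp.1
      · exact ((continuous_apply j).comp continuous_snd).continuousOn)
    (fun z hz x hx => (Complex.lt_def.1 ((h.pos z hz).dotProduct_mulVec_pos hx)).1)
    (fun z x c => by
      have e1 : (c • x : Fin n → ℂ) = (c : ℂ) • x := rfl
      rw [e1, Matrix.mulVec_smul, star_smul, smul_dotProduct, dotProduct_smul]
      simp only [smul_eq_mul, Complex.star_def, Complex.conj_ofReal]
      rw [← mul_assoc, ← Complex.ofReal_mul, Complex.re_ofReal_mul, sq])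
  obtain ⟨δ₄, hδ₄, h4⟩ := exists_unif hP h.op hPU
    (fun z (x : ℝ) => x ^ 2 * (w z).det.re)
    ((continuous_snd.pow 2).continuousOn.mul (Complex.continuous_re.comp_continuousOn
      (h.det_cont.comp continuousOn_fst fun p hp => hp.1)))
    (fun z hz x hx => mul_pos (by positivity) (Complex.lt_def.1 (h.pos z hz).det_pos).1)
    (fun z x c => by simp only [smul_eq_mul]; ring)
  refine ⟨min (min δ₁ δ₂) (min δ₃ δ₄), lt_min (lt_min hδ₁ hδ₂) (lt_min hδ₃ hδ₄), ?_⟩
  rintro z z' ⟨p, hp, hz, hz'⟩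
  have m1 : min (min δ₁ δ₂) (min δ₃ δ₄) ≤ δ₁ := (min_le_left _ _).trans (min_le_left _ _)
  have m2 : min (min δ₁ δ₂) (min δ₃ δ₄) ≤ δ₂ := (min_le_left _ _).trans (min_le_right _ _)
  have m3 : min (min δ₁ δ₂) (min δ₃ δ₄) ≤ δ₃ := (min_le_right _ _).trans (min_le_left _ _)
  have m4 : min (min δ₁ δ₂) (min δ₃ δ₄) ≤ δ₄ := (min_le_right _ _).trans (min_le_right _ _)
  obtain ⟨hzU, hzU', g1⟩ := h1 z z' ⟨p, hp, hz.trans_le m1, hz'.trans_le m1⟩
  obtain ⟨-, -, g2⟩ := h2 z z' ⟨p, hp, hz.trans_le m2, hz'.trans_le m2⟩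
  obtain ⟨-, -, g3⟩ := h3 z z' ⟨p, hp, hz.trans_le m3, hz'.trans_le m3⟩
  obtain ⟨-, -, g4⟩ := h4 z z' ⟨p, hp, hz.trans_le m4, hz'.trans_le m4⟩
  refine ⟨hzU, hzU', g1, g2, ?_, ?_⟩
  · have hH : ((2 : ℂ) • w z' - w z).IsHermitian := by
      refine Matrix.IsHermitian.sub ?_ (h.pos z hzU).isHermitian
      have h5 := (h.pos z' hzU').isHermitian
      rw [Matrix.IsHermitian, Matrix.conjTranspose_smul, h5.eq]
      simp
    refine Matrix.PosSemidef.of_dotProduct_mulVec_nonneg hH fun x => ?_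
    have h5 := (h.pos z hzU).posSemidef.dotProduct_mulVec_nonneg x
    have h6 := (h.pos z' hzU').posSemidef.dotProduct_mulVec_nonneg x
    have h7 := g3 x
    rw [Complex.le_def] at h5 h6 ⊢
    rw [Matrix.sub_mulVec, Matrix.smul_mulVec, dotProduct_sub, dotProduct_smul]
    simp only [smul_eq_mul, Complex.sub_re, Complex.sub_im, Complex.mul_re, Complex.mul_im,
      Complex.re_ofNat, Complex.im_ofNat, Complex.zero_re, Complex.zero_im] at h5 h6 ⊢
    constructor
    · linarith [h5.1]
    · linarith [h5.2, h6.2]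
  · have := g4 1
    simpa using this

end Vale.Agent.P284.H377
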