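import Vale.Agent.P284.H747.Spec
import Mathlib.MeasureTheory.Measure.Lebesgue.EqHaar
import Mathlib.RingTheory.Complex

/-!
# P284, package VL: the flat estimate after a linear change of coordinates
-/

open scoped Manifold ContDiff ComplexOrder Topology Matrix
open MeasureTheory Set Filter
open Vale.Agent.P272.K Vale.Agent.P272.K.INT Vale.Agent.P299.IX

noncomputable section

namespace Vale.Agent.P284.H377

variable {n : ℕ}

/-- the conclusion of `Spec_FL` for given constants -/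
def FLs (n : ℕ) (K₀ C : ℝ) : Prop :=
  ∀ (P U : Set (Cm n)) (φ : Cm n → ℝ), IsCompact P → 0 < volume P → IsOpen U → P ⊆ U →
    ContDiffOn ℝ ∞ φ U →
    (∀ z ∈ U, (2 • (1 : Matrix (Fin n) (Fin n) ℂ) - cHess φ z).PosSemidef ∧
      (2 • (1 : Matrix (Fin n) (Fin n) ℂ) + cHess φ z).PosSemidef) →
    ∃ k₀ : ℕ, ∀ k : ℕ, k₀ ≤ k → ∃ (N : ℕ) (h : Fin N → Cm n → ℂ) (K : ℝ),
      (N : ℝ) ≤ C * (k : ℝ) ^ n * (volume P).toReal ∧ 0 ≤ K ∧
      (∀ j, Measurable (h j)) ∧ (∀ j, ∃ M : ℝ, ∀ z, ‖h j z‖ ≤ M) ∧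
      ∀ g : Cm n → ℂ, ContDiff ℝ ∞ g → tsupport g ⊆ P →
        K₀ * k * (∫ z, ‖g z‖ ^ 2 * Real.exp (-(k * φ z))) ≤
          (∫ z, (∑ j, ‖dzb j g z‖ ^ 2) * Real.exp (-(k * φ z))) +
            K * ∑ j, ‖∫ z, g z * h j z‖ ^ 2

theorem det_real (M : Matrix (Fin n) (Fin n) ℂ) :
    LinearMap.det ((Matrix.toLin' M).restrictScalars ℝ) = ‖M.det‖ ^ 2 := by
  rw [LinearMap.det_restrictScalars, LinearMap.det_toLin', Algebra.norm_complex_apply,
    Complex.normSq_eq_norm_sq]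

theorem integral_mulVec {E : Type*} [NormedAddCommGroup E] [NormedSpace ℝ E]
    {M : Matrix (Fin n) (Fin n) ℂ} (hM : M.det ≠ 0) (F : Cm n → E) :
    ∫ z, F (M *ᵥ z) = (‖M.det‖ ^ 2)⁻¹ • ∫ z, F z := by
  set f : Cm n →ₗ[ℝ] Cm n := (Matrix.toLin' M).restrictScalars ℝ with hf
  have hdet : LinearMap.det f = ‖M.det‖ ^ 2 := det_real M
  have hd0 : LinearMap.det f ≠ 0 := by
    rw [hdet]; exact pow_ne_zero 2 (norm_ne_zero_iff.2 hM)
  have h1 := Measure.map_linearMap_addHaar_eq_smul_addHaar (volume : Measure (Cm n)) hd0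
  have hfc : (fun z => M *ᵥ z) = f := by
    funext z; simp [hf, Matrix.toLin'_apply]
  have hcont : Continuous fun z : Cm n => M *ᵥ z := by
    rw [hfc]; exact f.continuous_of_finiteDimensional
  have hemb : MeasurableEmbedding fun z : Cm n => M *ᵥ z := by
    refine hcont.measurableEmbedding ?_
    exact Matrix.mulVec_injective_of_isUnit ((Matrix.isUnit_iff_isUnit_det _).2
      (isUnit_iff_ne_zero.2 hM))
  have h2 : ∫ z, F z ∂(Measure.map (fun z => M *ᵥ z) volume) = ∫ z, F (M *ᵥ z) :=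
    hemb.integral_map F
  rw [← h2, hfc, h1, integral_smul_measure, ENNReal.toReal_ofReal (abs_nonneg _), hdet,
    abs_of_nonneg (by positivity)]

theorem continuous_mulVec' (M : Matrix (Fin n) (Fin n) ℂ) : Continuous fun z : Cm n => M *ᵥ z :=
  Continuous.matrix_mulVec continuous_const continuous_id

theorem contDiff_mulVec' {m : WithTop ℕ∞} (M : Matrix (Fin n) (Fin n) ℂ) : ContDiff ℂ m fun z : Cm n => M *ᵥ z := by
  have : (fun z : Cm n => M *ᵥ z) = LinearMap.toContinuousLinearMap (Matrix.toLin' M) := by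
    funext z; simp [Matrix.toLin'_apply]
  rw [this]
  exact ContinuousLinearMap.contDiff _

theorem jmat_mulVec' (M : Matrix (Fin n) (Fin n) ℂ) (z : Cm n) :
    jmat (fun z => M *ᵥ z) z = M := by
  have h1 : (fun z : Cm n => M *ᵥ z) = LinearMap.toContinuousLinearMap (Matrix.toLin' M) := by
    funext z; simp [Matrix.toLin'_apply]
  ext p i
  rw [h1, jmat_apply (ContinuousLinearMap.differentiableAt _), ContinuousLinearMap.fderiv]
  simp [Matrix.toLin'_apply]

/-- the quadratic form `Σ W⁻¹_{b l} x_b conj x_l` in terms of a factorisation -/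
theorem sum_inv_eq {R W : Matrix (Fin n) (Fin n) ℂ} (hR : W⁻¹ = R * Rᴴ) (x : Fin n → ℂ) :
    ∑ l, ∑ b, W⁻¹ b l * x b * (starRingEnd ℂ) (x l) =
      ((∑ j, ‖∑ p, x p * R p j‖ ^ 2 : ℝ) : ℂ) := by
  push_cast
  have h1 : ∀ j, ((‖∑ p, x p * R p j‖ : ℂ)) ^ 2 =
      ∑ l, ∑ b, (R b j * (starRingEnd ℂ) (R l j)) * x b * (starRingEnd ℂ) (x l) := by
    intro j
    rw [← Complex.mul_conj', map_sum, Finset.mul_sum]
    refine Finset.sum_congr rfl fun l _ => ?_
    rw [Finset.sum_mul]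
    refine Finset.sum_congr rfl fun b _ => ?_
    rw [map_mul]; ring
  simp only [h1]
  conv_rhs => rw [Finset.sum_comm]
  refine Finset.sum_congr rfl fun l _ => ?_
  conv_rhs => rw [Finset.sum_comm]
  refine Finset.sum_congr rfl fun b _ => ?_
  rw [hR, Matrix.mul_apply, Finset.sum_mul, Finset.sum_mul]
  refine Finset.sum_congr rfl fun j _ => ?_
  rw [Matrix.conjTranspose_apply]
  rfl

/-- **the flat estimate for a constant metric** -/
theorem FL_lin {K₀ C : ℝ} (hFL : FLs n K₀ C) (P U : Set (Cm n)) (φ : Cm n → ℝ)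
    (W : Matrix (Fin n) (Fin n) ℂ) (hP : IsCompact P) (hvP : 0 < volume P) (hU : IsOpen U)
    (hPU : P ⊆ U) (hφ : ContDiffOn ℝ ∞ φ U) (hW : W.PosDef)
    (hc : ∀ z ∈ U, ((2 : ℂ) • W - cHess φ z).PosSemidef ∧ ((2 : ℂ) • W + cHess φ z).PosSemidef) :
    ∃ k₀ : ℕ, ∀ k : ℕ, k₀ ≤ k → ∃ (N : ℕ) (h : Fin N → Cm n → ℂ) (K : ℝ),
      (N : ℝ) ≤ C * (k : ℝ) ^ n * (W.det.re * (volume P).toReal) ∧ 0 ≤ K ∧
      (∀ j, Measurable (h j)) ∧ (∀ j, ∃ M : ℝ, ∀ z, ‖h j z‖ ≤ M) ∧
      ∀ g : Cm n → ℂ, ContDiff ℝ ∞ g → tsupport g ⊆ P →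
        K₀ * k * (∫ z, ‖g z‖ ^ 2 * Real.exp (-(k * φ z))) ≤
          (∫ z, (∑ l, ∑ b, W⁻¹ b l * dzb b g z * (starRingEnd ℂ) (dzb l g z)).re *
            Real.exp (-(k * φ z))) + K * ∑ j, ‖∫ z, g z * h j z‖ ^ 2 := by
  obtain ⟨B, hB⟩ := C2.exists_factor hW.posSemidef
  have hWd : W.det ≠ 0 := hW.det_pos.ne'
  have hBd : B.det ≠ 0 := by
    intro h0
    rw [hB, Matrix.det_mul, h0, mul_zero] at hWd
    exact hWd rfl
  have hBu : IsUnit B.det := isUnit_iff_ne_zero.2 hBd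
  set R : Matrix (Fin n) (Fin n) ℂ := B⁻¹ with hR
  have hBR : B * R = 1 := Matrix.mul_nonsing_inv _ hBu
  have hRB : R * B = 1 := Matrix.nonsing_inv_mul _ hBu
  have hWinv : W⁻¹ = R * Rᴴ := by
    refine Matrix.inv_eq_right_inv ?_
    rw [hB, Matrix.mul_assoc, ← Matrix.mul_assoc B R, hBR, Matrix.one_mul,
      ← Matrix.conjTranspose_mul, hRB, Matrix.conjTranspose_one]
  set M : Matrix (Fin n) (Fin n) ℂ := R.map (starRingEnd ℂ) with hM
  set A : Matrix (Fin n) (Fin n) ℂ := B.map (starRingEnd ℂ) with hA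
  have hAM : A * M = 1 := by
    rw [hM, hA, ← Matrix.map_mul, hBR]
    exact Matrix.map_one _ (map_zero _) (map_one _)
  have hMA : M * A = 1 := by
    rw [hM, hA, ← Matrix.map_mul, hRB]
    exact Matrix.map_one _ (map_zero _) (map_one _)
  have hMdet : M.det ≠ 0 := by
    intro h0
    have := congrArg Matrix.det hAM
    rw [Matrix.det_mul, h0, mul_zero, Matrix.det_one] at this
    exact zero_ne_one this
  have hD : (‖M.det‖ ^ 2)⁻¹ = W.det.re := by
    have h1 : W.det = ((‖B.det‖ ^ 2 : ℝ) : ℂ) := by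
      rw [hB, Matrix.det_mul, Matrix.det_conjTranspose]
      push_cast
      exact Complex.conj_mul' _
    have h2 : ‖M.det‖ * ‖B.det‖ = 1 := by
      have h3 : ‖A.det‖ = ‖B.det‖ := by
        have : A.det = (starRingEnd ℂ) B.det := by
          rw [hA]; exact (RingHom.map_det (starRingEnd ℂ) B).symm
        rw [this, Complex.norm_conj]
      rw [← h3, ← norm_mul, ← Matrix.det_mul, hMA, Matrix.det_one, norm_one]
    rw [h1, Complex.ofReal_re]
    have h4 : (‖M.det‖ ^ 2) * (‖B.det‖ ^ 2) = 1 := by rw [← mul_pow, h2, one_pow]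
    exact inv_eq_of_mul_eq_one_right h4
  set D : ℝ := W.det.re with hDdef
  have hDpos : 0 < D := (Complex.lt_def.1 hW.det_pos).1
  set τ : Cm n → Cm n := fun z => M *ᵥ z with hτ
  have hτc : Continuous τ := continuous_mulVec' M
  have hAτ : ∀ z, A *ᵥ τ z = z := fun z => by
    rw [hτ]; simp only; rw [Matrix.mulVec_mulVec, hAM, Matrix.one_mulVec]
  have hτA : ∀ z, τ (A *ᵥ z) = z := fun z => by
    rw [hτ]; simp only; rw [Matrix.mulVec_mulVec, hMA, Matrix.one_mulVec]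
  have hτω : ∀ z, ContDiffAt ℂ ω τ z := fun z => (contDiff_mulVec' M).contDiffAt
  have hτs : ContDiff ℝ ∞ τ := (contDiff_mulVec' (m := ∞) M).restrict_scalars ℝ
  have hpre : τ ⁻¹' P = (fun z => A *ᵥ z) '' P := by
    ext z
    constructor
    · intro hz; exact ⟨τ z, hz, hAτ z⟩
    · rintro ⟨y, hy, rfl⟩
      show τ (A *ᵥ y) ∈ P
      rw [hτA]; exact hy
  have hvol : volume (τ ⁻¹' P) = ENNReal.ofReal D * volume P := by
    have h1 := Measure.addHaar_preimage_linearMap (volume : Measure (Cm n))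
      (f := (Matrix.toLin' M).restrictScalars ℝ) (by
        rw [det_real]; exact pow_ne_zero 2 (norm_ne_zero_iff.2 hMdet)) P
    rw [det_real, hD, abs_of_pos hDpos] at h1
    rw [← h1]
    congr 1
  have hMt : M.transpose = Rᴴ := by
    rw [hM]; rfl
  have hMm : M.map (starRingEnd ℂ) = R := by
    ext i j; simp [hM]
  have hRWR : Rᴴ * W * R = 1 := by
    rw [hB, ← Matrix.mul_assoc, ← Matrix.conjTranspose_mul, hBR, Matrix.conjTranspose_one,
      Matrix.one_mul, hBR]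
  obtain ⟨k₀, hk₀⟩ := hFL (τ ⁻¹' P) (τ ⁻¹' U) (fun z => φ (τ z))
    (by rw [hpre]; exact hP.image (continuous_mulVec' A))
    (by rw [hvol]; exact ENNReal.mul_pos (by simpa using hDpos) hvP.ne')
    (hU.preimage hτc) (preimage_mono hPU)
    (hφ.comp hτs.contDiffOn fun z hz => hz)
    (by
      intro z hz
      have h1 : cHess (fun y => φ (τ y)) z = Rᴴ * cHess φ (τ z) * R := by
        rw [cHess_comp ((hφ.contDiffAt (hU.mem_nhds hz)).of_le (by norm_cast)) (hτω z),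
          jmat_mulVec', hMt, hMm]
      have h2 := (hc (τ z) hz).1.conjTranspose_mul_mul_same R
      have h3 := (hc (τ z) hz).2.conjTranspose_mul_mul_same R
      rw [h1]
      have h4 : (2 : ℕ) • (1 : Matrix (Fin n) (Fin n) ℂ) = Rᴴ * ((2 : ℂ) • W) * R := by
        rw [Matrix.mul_smul, Matrix.smul_mul, hRWR, ← Nat.cast_smul_eq_nsmul ℂ]
        norm_num
      rw [h4]
      constructor
      · rw [← Matrix.sub_mul, ← Matrix.mul_sub]; exact h2
      · rw [← Matrix.add_mul, ← Matrix.mul_add]; exact h3)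
  refine ⟨k₀, fun k hk => ?_⟩
  obtain ⟨N, h, K, hN, hK, hm, hb, hg⟩ := hk₀ k hk
  refine ⟨N, fun j z => h j (A *ᵥ z), K * D, ?_, by positivity, fun j =>
    (hm j).comp (continuous_mulVec' A).measurable, fun j => ?_, fun g hgs hgP => ?_⟩
  · rw [hvol, ENNReal.toReal_mul, ENNReal.toReal_ofReal hDpos.le] at hN
    exact hN
  · obtain ⟨M', hM'⟩ := hb j
    exact ⟨M', fun z => hM' _⟩
  have key := hg (fun z => g (τ z)) (hgs.comp hτs) (by
    refine closure_minimal ?_ ((hP.isClosed).preimage hτc)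
    intro z hz
    exact hgP (subset_tsupport g hz))
  have e1 : ∫ z, ‖g (τ z)‖ ^ 2 * Real.exp (-(k * φ (τ z))) =
      D * ∫ z, ‖g z‖ ^ 2 * Real.exp (-(k * φ z)) := by
    have := integral_mulVec hMdet fun z => ‖g z‖ ^ 2 * Real.exp (-(k * φ z))
    rw [hD, smul_eq_mul] at this
    exact this
  have e2 : ∫ z, (∑ j, ‖dzb j (fun z => g (τ z)) z‖ ^ 2) * Real.exp (-(k * φ (τ z))) =
      D * ∫ z, (∑ l, ∑ b, W⁻¹ b l * dzb b g z * (starRingEnd ℂ) (dzb l g z)).re *
        Real.exp (-(k * φ z)) := by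
    have := integral_mulVec hMdet fun z =>
      (∑ l, ∑ b, W⁻¹ b l * dzb b g z * (starRingEnd ℂ) (dzb l g z)).re * Real.exp (-(k * φ z))
    rw [hD, smul_eq_mul] at this
    rw [← this]
    refine integral_congr_ae (Eventually.of_forall fun z => ?_)
    simp only
    congr 1
    rw [sum_inv_eq hWinv, Complex.ofReal_re]
    refine Finset.sum_congr rfl fun j _ => ?_
    rw [dzb_comp_holo ((hgs.contDiffAt).differentiableAt (by simp))
      ((hτω z).differentiableAt (by simp)), jmat_mulVec']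
    have : ∀ p, cj (M p j) = R p j := fun p => by
      have := congrFun (congrFun hMm p) j
      exact this
    simp only [this]
    rfl
  have e3 : ∀ j, ∫ z, g (τ z) * h j z = (D : ℂ) * ∫ z, g z * h j (A *ᵥ z) := by
    intro j
    have := integral_mulVec hMdet fun z => g z * h j (A *ᵥ z)
    rw [hD, Complex.real_smul] at this
    rw [← this]
    refine integral_congr_ae (Eventually.of_forall fun z => ?_)
    simp only
    congr 2
    exact (hAτ z).symm
  simp only [e1, e2, e3] at key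
  have e4 : ∀ j, ‖(D : ℂ) * ∫ z, g z * h j (A *ᵥ z)‖ ^ 2 =
      D ^ 2 * ‖∫ z, g z * h j (A *ᵥ z)‖ ^ 2 := by
    intro j
    rw [norm_mul, mul_pow, Complex.norm_real, Real.norm_of_nonneg hDpos.le]
  simp only [e4] at key
  rw [← Finset.mul_sum] at key
  refine le_of_mul_le_mul_left ?_ hDpos
  calc D * (K₀ * k * ∫ z, ‖g z‖ ^ 2 * Real.exp (-(k * φ z)))
      = K₀ * k * (D * ∫ z, ‖g z‖ ^ 2 * Real.exp (-(k * φ z))) := by ring
    _ ≤ _ := key
    _ = _ := by ring

end Vale.Agent.P284.H377
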