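import Vale.Agent.P284.H377.Cont
import Vale.Agent.P284.H377.Cubes
import Mathlib.Analysis.Calculus.BumpFunction.FiniteDimension

/-!
# P284: package VL
-/

open scoped Manifold ContDiff ComplexOrder Topology Matrix
open MeasureTheory Set Filter Metric
open Vale.Agent.P272.K Vale.Agent.P272.K.INT Vale.Agent.P299.IX

noncomputable section

namespace Vale.Agent.P284.H377

variable {n : ℕ}

/-- the cut-off function of a lattice cube -/
def bmp {s : ℝ} (hs : 0 < s) (a : Fin n → ℤ × ℤ) : ContDiffBump (ctr s a) where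
  rIn := 3 / 2 * s
  rOut := 2 * s
  rIn_pos := by positivity
  rIn_lt_rOut := by linarith

/-- the cut-off function as a complex function -/
def bc {s : ℝ} (hs : 0 < s) (a : Fin n → ℤ × ℤ) (z : Cm n) : ℂ := ((bmp hs a z : ℝ) : ℂ)

section bump

variable {s : ℝ} (hs : 0 < s) (a : Fin n → ℤ × ℤ)

theorem bc_smooth : ContDiff ℝ ∞ (bc hs a) :=
  Complex.ofRealCLM.contDiff.comp (bmp hs a).contDiff

theorem bc_nonneg (z : Cm n) : 0 ≤ bmp hs a z := (bmp hs a).nonneg

theorem bc_le (z : Cm n) : bmp hs a z ≤ 1 := (bmp hs a).le_one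

theorem bc_norm (z : Cm n) : ‖bc hs a z‖ = bmp hs a z := by
  rw [bc, Complex.norm_real, Real.norm_of_nonneg (bc_nonneg hs a z)]

theorem bc_one {z : Cm n} (hz : z ∈ Qc s a) : bmp hs a z = 1 := by
  refine (bmp hs a).one_of_mem_closedBall ?_
  have h1 := dist_ctr hs z
  rw [show cell s z = a from hz] at h1
  exact h1

theorem bc_support {z : Cm n} (hz : bc hs a z ≠ 0) : dist z (ctr s a) < 2 * s := by
  have h1 : bmp hs a z ≠ 0 := by
    intro h0
    apply hz
    rw [bc, h0]; simp
  have h2 : z ∈ Function.support (bmp hs a) := h1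
  rw [(bmp hs a).support_eq] at h2
  exact h2

theorem bc_tsupport : tsupport (bc hs a) ⊆ closedBall (ctr s a) (2 * s) := by
  refine closure_minimal ?_ isClosed_closedBall
  intro z hz
  exact mem_closedBall.2 (bc_support hs a hz).le

/-- the sum of the squares of the cut-off functions is bounded -/
theorem bc_sum (S : Finset (Fin n → ℤ × ℤ)) (z : Cm n) : ∑ a ∈ S, bmp hs a z ^ 2 ≤ 16 ^ n := by
  classical
  have h1 : ∀ a ∈ S, bmp hs a z ^ 2 ≤ if dist z (ctr s a) < 2 * s then (1 : ℝ) else 0 := by
    intro a _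
    split_ifs with h
    · exact pow_le_one₀ (bc_nonneg hs a z) (bc_le hs a z)
    · have : bc hs a z = 0 := by
        by_contra h0
        exact h (bc_support hs a h0)
      have h2 : bmp hs a z = 0 := by
        rw [bc] at this
        exact_mod_cast this
      rw [h2]; simp
  refine (Finset.sum_le_sum h1).trans ?_
  rw [← Finset.sum_filter, Finset.sum_const, nsmul_eq_mul, mul_one]
  exact_mod_cast card_overlap hs z S

end bump

open Vale.Agent.P284.H747 in
/-- **package VL** -/
theorem VL (hFL : Spec_FL) : Spec_VL := by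
  classical
  intro n hn K₀ hK₀
  set K₁ : ℝ := 8 * 16 ^ n * (K₀ + 1) with hK₁
  obtain ⟨C, hC, hFLn⟩ := hFL n hn K₁ (by positivity)
  refine ⟨2 ^ n * C * 16 ^ n * 2, by positivity, ?_⟩
  intro P U φ w hP hU hPU hφ hwsm hwpos hcurv hint
  have hw : Met w U := ⟨hU, hwsm, hwpos⟩
  obtain ⟨δ, hδ, hcmp⟩ := hw.compare hP hPU
  set s : ℝ := δ / 5 with hsd
  have hs : 0 < s := by positivity
  have hδs : δ = 5 * s := by rw [hsd]; ring
  set S : Finset (Fin n → ℤ × ℤ) := (finite_cells hs hP.isBounded).toFinset with hS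
  have hSm : ∀ a ∈ S, ∃ p ∈ P, p ∈ Qc s a := by
    intro a ha
    rw [hS, Set.Finite.mem_toFinset] at ha
    obtain ⟨p, hp, hpa⟩ := ha
    exact ⟨p, hp, hpa⟩
  -- points near the centre
  have hnear : ∀ a ∈ S, ∃ p ∈ P, dist (ctr s a) p < δ ∧
      ∀ z, dist z (ctr s a) < 3 * s → dist z p < δ := by
    intro a ha
    obtain ⟨p, hp, hpa⟩ := hSm a ha
    have h1 := dist_ctr hs p
    rw [show cell s p = a from hpa, dist_comm] at h1
    refine ⟨p, hp, by rw [hδs]; linarith, fun z hz => ?_⟩
    have := dist_triangle z (ctr s a) p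
    rw [hδs]; linarith
  have hcU : ∀ a ∈ S, ctr s a ∈ U := by
    intro a ha
    obtain ⟨p, hp, h1, -⟩ := hnear a ha
    exact (hcmp _ _ ⟨p, hp, h1, h1⟩).1
  have hzc : ∀ a ∈ S, ∀ z, dist z (ctr s a) < 3 * s → z ∈ U ∧
      (∀ X, q1 (w z) X ≤ 2 * q1 (w (ctr s a)) X) ∧ (∀ X, q2 (w (ctr s a)) X ≤ 2 * q2 (w z) X) ∧
      ((2 : ℂ) • w (ctr s a) - w z).PosSemidef ∧ (w (ctr s a)).det.re ≤ 2 * (w z).det.re := by
    intro a ha z hz
    obtain ⟨p, hp, h1, h2⟩ := hnear a ha
    have g1 := hcmp z (ctr s a) ⟨p, hp, h2 z hz, h1⟩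
    have g2 := hcmp (ctr s a) z ⟨p, hp, h1, h2 z hz⟩
    exact ⟨g1.1, g1.2.2.1, g2.2.2.2.1, g1.2.2.2.2.1, g2.2.2.2.2.2⟩
  have hWp : ∀ a ∈ S, (w (ctr s a)).PosDef := fun a ha => hwpos _ (hcU a ha)
  -- the flat estimate on each cube
  have hflat : ∀ a : S, ∃ k₀ : ℕ, ∀ k : ℕ, k₀ ≤ k → ∃ (N : ℕ) (h : Fin N → Cm n → FI n → ℂ)
      (K : ℝ), (N : ℝ) ≤ Fintype.card (FI n) * (C * (k : ℝ) ^ n * ((w (ctr s a.1)).det.re *
        (volume (closedBall (ctr s a.1) (2 * s))).toReal)) ∧ 0 ≤ K ∧
      (∀ j, Measurable (h j)) ∧ (∀ j, ∃ M : ℝ, ∀ z i, ‖h j z i‖ ≤ M) ∧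
      ∀ v : Cm n → FI n → ℂ, ContDiff ℝ ∞ v → tsupport v ⊆ closedBall (ctr s a.1) (2 * s) →
        K₁ * k * (∫ z, q1 (w (ctr s a.1)) (v z) * Real.exp (-(k * φ z))) ≤
          (∫ z, q2 (w (ctr s a.1)) (fun b => DVb b v z) * Real.exp (-(k * φ z))) +
            K * ∑ j, ‖∫ z, ∑ i, v z i * h j z i‖ ^ 2 := by
    rintro ⟨a, ha⟩
    obtain ⟨k₀, hk₀⟩ := FL_vec (ι := FI n) hFLn (closedBall (ctr s a) (2 * s))
      (ball (ctr s a) (3 * s)) φ (w (ctr s a))
      (((w (ctr s a)).det * (w (ctr s a)).det) • lam (w (ctr s a))⁻¹)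
      (isCompact_closedBall _ _) (measure_closedBall_pos _ _ (by positivity)) isOpen_ball
      (closedBall_subset_ball (by linarith))
      (hφ.mono fun z hz => (hzc a ha z hz).1) (hWp a ha) (posSemidef_smul_lam (hWp a ha))
      (fun z hz => by
        obtain ⟨h1, -, -, h2, -⟩ := hzc a ha z hz
        have h3 := hcurv z h1
        constructor
        · have := h2.add h3.1
          rwa [sub_add_sub_cancel] at this
        · have := h2.add h3.2
          rwa [show (2 : ℂ) • w (ctr s a) - w z + (w z + cHess φ z) =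
            (2 : ℂ) • w (ctr s a) + cHess φ z by abel] at this)
    refine ⟨k₀, fun k hk => ?_⟩
    obtain ⟨N, h, K, hN, hK, hm, hb, hv⟩ := hk₀ k hk
    refine ⟨N, h, K, hN, hK, hm, hb, fun v hv1 hv2 => ?_⟩
    have := hv v hv1 hv2
    simp only [pr_smul_lam] at this
    exact this
  choose k₀ hk₀ using hflat
  -- bound for the derivatives of the cut-off functions
  have hL : ∀ a : S, ∃ L : ℝ, 0 ≤ L ∧ ∀ z ∈ P, (∑ l, ∑ b, (w z)⁻¹ b l * dzb b (bc hs a.1) z *
      (starRingEnd ℂ) (dzb l (bc hs a.1) z)).re ≤ L := by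
    intro a
    have hcont : ContinuousOn (fun z => (∑ l, ∑ b, (w z)⁻¹ b l * dzb b (bc hs a.1) z *
      (starRingEnd ℂ) (dzb l (bc hs a.1) z)).re) P := by
      refine Complex.continuous_re.comp_continuousOn (continuousOn_finsetSum _ fun l _ =>
        continuousOn_finsetSum _ fun b _ => ((((hw.inv_cont b l).mono hPU).mul ?_).mul ?_))
      · exact (contDiff_dzb (bc_smooth hs a.1) b).continuous.continuousOn
      · exact (Complex.continuous_conj.comp
          (contDiff_dzb (bc_smooth hs a.1) l).continuous).continuousOn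
    obtain ⟨L, hL⟩ := hP.exists_bound_of_continuousOn hcont
    exact ⟨|L|, abs_nonneg _, fun z hz => (le_abs_self _).trans ((hL z hz).trans (le_abs_self _))⟩
  choose L hL0 hL using hL
  refine ⟨∑ a, k₀ a + ⌈∑ a, L a⌉₊, fun k hk => ?_⟩
  have hk₀a : ∀ a, k₀ a ≤ k := fun a =>
    ((Finset.single_le_sum (f := k₀) (fun _ _ => Nat.zero_le _) (Finset.mem_univ a)).trans
      (Nat.le_add_right _ _)).trans hk
  have hLk : ∑ a, L a ≤ k :=
    (Nat.le_ceil _).trans (by exact_mod_cast (Nat.le_add_left _ _).trans hk)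
  have hka := fun a => hk₀ a k (hk₀a a)
  choose N h K hN hK hm hb hv using hka
  set e := (Fintype.equivFin (Σ a : S, Fin (N a))).symm with he
  refine ⟨Fintype.card (Σ a : S, Fin (N a)), fun j z i => bc hs (e j).1.1 z *
    h (e j).1 (e j).2 z i, ∑ a, K a, ?_, Finset.sum_nonneg fun a _ => hK a, ?_, ?_, ?_⟩
  · -- the number of conditions
    rw [Fintype.card_sigma]
    push_cast
    simp only [Fintype.card_fin]
    have hQU : ∀ a : S, Qc s a.1 ⊆ U := by
      rintro ⟨a, ha⟩ z hz
      refine (hzc a ha z ?_).1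
      have h1 := dist_ctr hs z
      rw [show cell s z = a from hz] at h1
      linarith
    have h1 : ∀ a : S, (N a : ℝ) ≤ (2 ^ n * C * 16 ^ n * 2 * (k : ℝ) ^ n) *
        ∫ z in Qc s a.1, (w z).det.re := by
      intro a
      have h2 : (w (ctr s a.1)).det.re * (volume (Qc s a.1)).toReal ≤
          2 * ∫ z in Qc s a.1, (w z).det.re := by
        have h3 : ∫ z in Qc s a.1, (w (ctr s a.1)).det.re ≤
            ∫ z in Qc s a.1, 2 * (w z).det.re := by
          refine setIntegral_mono_on ?_ ((hint.mono_set (hQU a)).const_mul 2)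
            (measurableSet_Qc hs a.1) fun z hz => ?_
          · refine integrableOn_const ?_
            rw [volume_Qc hs]
            exact ENNReal.pow_ne_top ENNReal.ofReal_ne_top
          · refine (hzc a.1 a.2 z ?_).2.2.2.2
            have h1 := dist_ctr hs z
            rw [show cell s z = a.1 from hz] at h1
            linarith
        rw [setIntegral_const, integral_const_mul, smul_eq_mul, mul_comm] at h3
        exact h3
      have h4 := volume_ball_ctr hs (ctr s a.1) a.1
      have h5 : 0 ≤ (w (ctr s a.1)).det.re := (Complex.le_def.1 (hWp a.1 a.2).det_pos.le).1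
      have h6 : (Fintype.card (FI n) : ℝ) = 2 ^ n := by
        rw [Fintype.card_finset, Fintype.card_fin]; push_cast; rfl
      refine (hN a).trans ?_
      rw [h6]
      have h7 : (w (ctr s a.1)).det.re * (volume (closedBall (ctr s a.1) (2 * s))).toReal ≤
          16 ^ n * (2 * ∫ z in Qc s a.1, (w z).det.re) := by
        refine (mul_le_mul_of_nonneg_left h4 h5).trans ?_
        calc (w (ctr s a.1)).det.re * (16 ^ n * (volume (Qc s a.1)).toReal)
            = 16 ^ n * ((w (ctr s a.1)).det.re * (volume (Qc s a.1)).toReal) := by ring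
          _ ≤ _ := mul_le_mul_of_nonneg_left h2 (by positivity)
      have h8 : (0 : ℝ) ≤ 2 ^ n * (C * (k : ℝ) ^ n) := by positivity
      calc (2 : ℝ) ^ n * (C * (k : ℝ) ^ n * ((w (ctr s a.1)).det.re *
            (volume (closedBall (ctr s a.1) (2 * s))).toReal))
          = 2 ^ n * (C * (k : ℝ) ^ n) * ((w (ctr s a.1)).det.re *
            (volume (closedBall (ctr s a.1) (2 * s))).toReal) := by ring
        _ ≤ 2 ^ n * (C * (k : ℝ) ^ n) * (16 ^ n * (2 * ∫ z in Qc s a.1, (w z).det.re)) :=
            mul_le_mul_of_nonneg_left h7 h8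
        _ = _ := by ring
    refine (Finset.sum_le_sum fun a _ => h1 a).trans ?_
    rw [← Finset.mul_sum]
    refine mul_le_mul_of_nonneg_left ?_ (by positivity)
    have h9 : ∑ a : S, ∫ z in Qc s a.1, (w z).det.re =
        ∫ z in ⋃ a : S, Qc s a.1, (w z).det.re := by
      have h10 := integral_iUnion (f := fun z => (w z).det.re) (μ := volume)
        (s := fun a : S => Qc s a.1) (fun a => measurableSet_Qc hs a.1) (by
          intro a b hab
          refine Set.disjoint_left.2 fun z hz hz' => hab ?_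
          exact Subtype.ext ((show cell s z = a.1 from hz).symm.trans hz'))
        (hint.mono_set (iUnion_subset hQU))
      rw [h10, tsum_fintype]
    rw [h9]
    refine setIntegral_mono_set hint ?_ (Eventually.of_forall (iUnion_subset hQU))
    refine (ae_restrict_iff' hU.measurableSet).2 (Eventually.of_forall fun z hz => ?_)
    exact (Complex.le_def.1 (hwpos z hz).det_pos.le).1
  · intro j
    refine measurable_pi_lambda _ fun i => ?_
    exact (bc_smooth hs (e j).1.1).continuous.measurable.mul
      ((measurable_pi_apply i).comp (hm (e j).1 (e j).2))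
  · intro j
    obtain ⟨M, hM⟩ := hb (e j).1 (e j).2
    refine ⟨M, fun z i => ?_⟩
    rw [norm_mul, bc_norm]
    have h1 := hM z i
    have h2 := bc_le hs (e j).1.1 z
    have h3 := bc_nonneg hs (e j).1.1 z
    nlinarith [norm_nonneg (h (e j).1 (e j).2 z i)]
  · intro v hv1 hv2
    set E : Cm n → ℝ := fun z => Real.exp (-(k * φ z)) with hE
    have hEpos : ∀ z, 0 < E z := fun z => Real.exp_pos _
    have hEc : ContinuousOn E P := Real.continuous_exp.comp_continuousOn
      ((hφ.continuousOn.mono hPU).const_smul (k : ℝ)).neg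
    have h0v : ∀ z, z ∉ P → v z = 0 := fun z hz =>
      image_eq_zero_of_notMem_tsupport fun h => hz (hv2 h)
    have h0dv : ∀ z, z ∉ P → ∀ b, DVb b v z = 0 := fun z hz b => by
      funext i
      exact dzb_zero_of (g := fun y => v y i)
        (tsupport_comp_subset hv2 (f := fun u => u i) rfl) hz b
    have hvc : ∀ i, ContDiff ℝ ∞ fun z => v z i := fun i => contDiff_pi.1 hv1 i
    have hdvc : ∀ b, Continuous (DVb b v) := fun b =>
      continuous_pi fun i => (contDiff_dzb (hvc i) b).continuous
    have q10 : ∀ W : Matrix (Fin n) (Fin n) ℂ, q1 W (0 : FI n → ℂ) = 0 := fun W => by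
      have := q1_smul (W := W) 0 0
      simpa using this
    have q20 : ∀ W : Matrix (Fin n) (Fin n) ℂ, q2 W (fun _ => (0 : FI n → ℂ)) = 0 := fun W => by
      have h1 : q2 W (0 : Fin n → FI n → ℂ) = 0 := by
        have := q2_smul (W := W) 0 (0 : Fin n → FI n → ℂ)
        simpa using this
      exact h1
    -- the cut off functions
    set u : S → Cm n → FI n → ℂ := fun a z => bc hs a.1 z • v z with hu
    have hu1 : ∀ a, ContDiff ℝ ∞ (u a) := fun a =>
      contDiff_pi.2 fun i => (bc_smooth hs a.1).mul (hvc i)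
    have hu2 : ∀ a, tsupport (u a) ⊆ closedBall (ctr s a.1) (2 * s) := by
      intro a
      refine closure_minimal ?_ isClosed_closedBall
      intro z hz
      refine mem_closedBall.2 (bc_support hs a.1 ?_).le
      intro h0
      apply hz
      simp only [hu, h0, zero_smul]
    have hu3 : ∀ a, tsupport (u a) ⊆ P := by
      intro a
      refine (closure_mono ?_).trans hv2
      intro z hz h0
      apply hz
      simp only [hu, h0, smul_zero]
    have hduc : ∀ a b, Continuous (DVb b (u a)) := fun a b =>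
      continuous_pi fun i => (contDiff_dzb (contDiff_pi.1 (hu1 a) i) b).continuous
    have h0u : ∀ a z, z ∉ P → u a z = 0 := fun a z hz => by
      simp only [hu, h0v z hz, smul_zero]
    have h0du : ∀ a z, z ∉ P → ∀ b, DVb b (u a) z = 0 := fun a z hz b => by
      funext i
      exact dzb_zero_of (g := fun y => u a y i)
        (tsupport_comp_subset (hu3 a) (f := fun u => u i) rfl) hz b
    have h0du' : ∀ a z, z ∉ closedBall (ctr s a.1) (2 * s) → ∀ b, DVb b (u a) z = 0 :=
      fun a z hz b => by
        funext i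
        exact dzb_zero_of (g := fun y => u a y i)
          (tsupport_comp_subset (hu2 a) (f := fun u => u i) rfl) hz b
    have hdu : ∀ a z b, DVb b (u a) z =
        dzb b (bc hs a.1) z • v z + bc hs a.1 z • DVb b v z := fun a z b =>
      DVb_smul ((bc_smooth hs a.1).contDiffAt.of_le (by exact_mod_cast le_top))
        fun i => (hvc i).contDiffAt.of_le (by exact_mod_cast le_top)
    -- integrability
    have i1 : Integrable fun z => q1 (w z) (v z) * E z := by
      refine integrable_of hP ((hw.q1_cont (f := id) continuousOn_id hPU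
        hv1.continuous.continuousOn).mul hEc) fun z hz => ?_
      rw [h0v z hz, q10, zero_mul]
    have i2 : Integrable fun z => q2 (w z) (fun b => DVb b v z) * E z := by
      refine integrable_of hP ((hw.q2_cont (f := id) continuousOn_id hPU
        (continuous_pi hdvc).continuousOn).mul hEc) fun z hz => ?_
      simp only [h0dv z hz, q20, zero_mul]
    have i3 : ∀ a, Integrable fun z => q1 (w (ctr s a.1)) (u a z) * E z := by
      intro a
      refine integrable_of hP ((hw.q1_cont (f := fun _ => ctr s a.1) continuousOn_const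
        (fun _ _ => hcU a.1 a.2) (hu1 a).continuous.continuousOn).mul hEc) fun z hz => ?_
      rw [h0u a z hz, q10, zero_mul]
    have i4 : ∀ a, Integrable fun z => q2 (w (ctr s a.1)) (fun b => DVb b (u a) z) * E z := by
      intro a
      refine integrable_of hP ((hw.q2_cont (f := fun _ => ctr s a.1) continuousOn_const
        (fun _ _ => hcU a.1 a.2) (continuous_pi (hduc a)).continuousOn).mul hEc) fun z hz => ?_
      simp only [h0du a z hz, q20, zero_mul]
    -- the estimate on the cubes
    have key : ∀ a, K₁ * k * (∫ z, q1 (w (ctr s a.1)) (u a z) * E z) ≤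
        (∫ z, q2 (w (ctr s a.1)) (fun b => DVb b (u a) z) * E z) +
          K a * ∑ j, ‖∫ z, ∑ i, u a z i * h a j z i‖ ^ 2 := fun a => hv a (u a) (hu1 a) (hu2 a)
    -- pointwise comparison of the norms
    have p1 : ∫ z, q1 (w z) (v z) * E z ≤
        ∑ a, 2 * ∫ z, q1 (w (ctr s a.1)) (u a z) * E z := by
      have e1 : ∑ a, 2 * ∫ z, q1 (w (ctr s a.1)) (u a z) * E z =
          ∫ z, ∑ a, 2 * (q1 (w (ctr s a.1)) (u a z) * E z) := by
        rw [integral_finsetSum _ fun a _ => (i3 a).const_mul 2]
        simp only [integral_const_mul]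
      rw [e1]
      refine integral_mono i1 (integrable_finsetSum _ fun a _ => (i3 a).const_mul 2) fun z => ?_
      simp only
      by_cases hz : z ∈ P
      · have hmem : cell s z ∈ S := by
          rw [hS, Set.Finite.mem_toFinset]; exact ⟨z, hz, rfl⟩
        set a₀ : S := ⟨cell s z, hmem⟩ with ha₀
        have h1 : u a₀ z = v z := by
          have h2 : bmp hs a₀.1 z = 1 := bc_one hs a₀.1 rfl
          have h3 : bc hs a₀.1 z = 1 := by rw [bc, h2]; simp
          simp only [hu, h3, one_smul]
        have h2 : q1 (w z) (v z) ≤ 2 * q1 (w (ctr s a₀.1)) (u a₀ z) := by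
          rw [h1]
          refine (hzc a₀.1 a₀.2 z ?_).2.1 (v z)
          have := dist_ctr hs z
          have h5 : dist z (ctr s a₀.1) ≤ 3 / 2 * s := this
          linarith
        have h3 : 2 * (q1 (w (ctr s a₀.1)) (u a₀ z) * E z) ≤
            ∑ a, 2 * (q1 (w (ctr s a.1)) (u a z) * E z) :=
          Finset.single_le_sum (f := fun a : S => 2 * (q1 (w (ctr s a.1)) (u a z) * E z))
            (fun a _ => mul_nonneg two_pos.le (mul_nonneg (q1_nonneg (hWp a.1 a.2) _)
              (hEpos z).le)) (Finset.mem_univ a₀)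
        refine le_trans ?_ h3
        rw [← mul_assoc]
        exact mul_le_mul_of_nonneg_right h2 (hEpos z).le
      · rw [h0v z hz, q10, zero_mul]
        exact Finset.sum_nonneg fun a _ => mul_nonneg two_pos.le
          (mul_nonneg (q1_nonneg (hWp a.1 a.2) _) (hEpos z).le)
    -- pointwise comparison of the gradients
    have p2 : ∑ a, ∫ z, q2 (w (ctr s a.1)) (fun b => DVb b (u a) z) * E z ≤
        4 * 16 ^ n * (∫ z, q2 (w z) (fun b => DVb b v z) * E z) +
          4 * (∑ a, L a) * ∫ z, q1 (w z) (v z) * E z := by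
      rw [← integral_finsetSum _ fun a _ => i4 a, ← integral_const_mul, ← integral_const_mul,
        ← integral_add (i2.const_mul _) (i1.const_mul _)]
      refine integral_mono (integrable_finsetSum _ fun a _ => i4 a)
        ((i2.const_mul _).add (i1.const_mul _)) fun z => ?_
      simp only
      by_cases hz : z ∈ P
      · have hwz := hwpos z (hPU hz)
        have hq1 := q1_nonneg hwz (v z)
        have hq2 := q2_nonneg hwz fun b => DVb b v z
        have h1 : ∀ a : S, q2 (w (ctr s a.1)) (fun b => DVb b (u a) z) ≤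
            4 * bmp hs a.1 z ^ 2 * q2 (w z) (fun b => DVb b v z) + 4 * L a * q1 (w z) (v z) := by
          intro a
          by_cases hza : z ∈ closedBall (ctr s a.1) (2 * s)
          · have hza' : dist z (ctr s a.1) < 3 * s := by
              have := mem_closedBall.1 hza
              linarith
            have h2 := (hzc a.1 a.2 z hza').2.2.1 fun b => DVb b (u a) z
            have h3 : (fun b => DVb b (u a) z) = (fun b => dzb b (bc hs a.1) z • v z) +
                bc hs a.1 z • fun b => DVb b v z := by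
              funext b
              rw [hdu]
              rfl
            have h4 := q2_add_le hwz (fun b => dzb b (bc hs a.1) z • v z)
              (bc hs a.1 z • fun b => DVb b v z)
            rw [← h3, q2_tensor hwz, q2_smul, bc_norm] at h4
            have h5 := mul_le_mul_of_nonneg_right (hL a z hz) hq1
            linarith
          · simp only [h0du' a z hza, q20]
            have := hL0 a
            positivity
        have h2 : ∑ a : S, bmp hs a.1 z ^ 2 ≤ 16 ^ n := by
          rw [Finset.sum_coe_sort S fun a => bmp hs a z ^ 2]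
          exact bc_sum hs S z
        have h3 : ∑ a : S, q2 (w (ctr s a.1)) (fun b => DVb b (u a) z) ≤
            4 * 16 ^ n * q2 (w z) (fun b => DVb b v z) + 4 * (∑ a, L a) * q1 (w z) (v z) := by
          refine (Finset.sum_le_sum fun a _ => h1 a).trans ?_
          rw [Finset.sum_add_distrib, ← Finset.sum_mul, ← Finset.sum_mul, ← Finset.mul_sum,
            ← Finset.mul_sum]
          have h4 := mul_le_mul_of_nonneg_right h2 hq2
          linarith
        rw [← Finset.sum_mul, ← mul_assoc, ← mul_assoc, ← add_mul]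
        exact mul_le_mul_of_nonneg_right h3 (hEpos z).le
      · simp only [h0du _ z hz, h0dv z hz, h0v z hz, q20, q10]
        simp
    -- the final computation
    have e1 : ∀ z, (G.hp (fun y => (Real.exp (-(k * φ y)) : ℂ) * (w y).det) w z
        (v z) (v z)).re = q1 (w z) (v z) * E z := by
      intro z
      rw [hp_exp, Complex.re_ofReal_mul, mul_comm]
      rfl
    have e2 : ∀ z, (G.gradb (fun y => (Real.exp (-(k * φ y)) : ℂ) * (w y).det) w v v z).re =
        q2 (w z) (fun b => DVb b v z) * E z := by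
      intro z
      rw [gradb_exp, Complex.re_ofReal_mul, mul_comm]
      rfl
    simp only [e1, e2]
    set I₁ := ∫ z, q1 (w z) (v z) * E z with hI₁
    set I₂ := ∫ z, q2 (w z) (fun b => DVb b v z) * E z with hI₂
    set R : S → ℝ := fun a => ∑ j, ‖∫ z, ∑ i, u a z i * h a j z i‖ ^ 2 with hR
    have hR0 : ∀ a, 0 ≤ R a := fun a => Finset.sum_nonneg fun j _ => by positivity
    have e3 : ∑ j, ‖∫ z, ∑ i, v z i * (bc hs (e j).1.1 z * h (e j).1 (e j).2 z i)‖ ^ 2 =
        ∑ a, R a := by
      rw [Equiv.sum_comp e (fun p : Σ a : S, Fin (N a) =>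
        ‖∫ z, ∑ i, v z i * (bc hs p.1.1 z * h p.1 p.2 z i)‖ ^ 2), Fintype.sum_sigma]
      refine Finset.sum_congr rfl fun a _ => Finset.sum_congr rfl fun j _ => ?_
      congr 3
      funext z
      refine Finset.sum_congr rfl fun i _ => ?_
      simp only [hu, Pi.smul_apply, smul_eq_mul]; ring
    rw [e3]
    have hI₁0 : 0 ≤ I₁ := by
      refine integral_nonneg fun z => ?_
      by_cases hz : z ∈ P
      · exact mul_nonneg (q1_nonneg (hwpos z (hPU hz)) _) (hEpos z).le
      · simp only [h0v z hz, q10]; simp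
    have s1 : K₁ * k * I₁ ≤ 2 * ∑ a, (∫ z, q2 (w (ctr s a.1)) (fun b => DVb b (u a) z) * E z) +
        2 * ∑ a, K a * R a := by
      have hK₁0 : 0 ≤ K₁ * k := by positivity
      refine (mul_le_mul_of_nonneg_left p1 hK₁0).trans ?_
      rw [Finset.mul_sum, Finset.mul_sum, Finset.mul_sum, ← Finset.sum_add_distrib]
      refine Finset.sum_le_sum fun a _ => ?_
      have := key a
      linarith
    have s2 : ∑ a, K a * R a ≤ (∑ a, K a) * ∑ a, R a := by
      rw [Finset.sum_mul]
      refine Finset.sum_le_sum fun a _ => mul_le_mul_of_nonneg_left ?_ (hK a)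
      exact Finset.single_le_sum (f := R) (fun a _ => hR0 a) (Finset.mem_univ a)
    have hM : (1 : ℝ) ≤ 16 ^ n := one_le_pow₀ (by norm_num)
    have s3 : (∑ a, L a) * I₁ ≤ k * I₁ := mul_le_mul_of_nonneg_right hLk hI₁0
    have s4 : k * I₁ ≤ 16 ^ n * (k * I₁) := by
      have : 0 ≤ k * I₁ := by positivity
      nlinarith
    have hKR : 0 ≤ (∑ a, K a) * ∑ a, R a :=
      mul_nonneg (Finset.sum_nonneg fun a _ => hK a) (Finset.sum_nonneg fun a _ => hR0 a)
    have s5 : (∑ a, K a) * ∑ a, R a ≤ 16 ^ n * ((∑ a, K a) * ∑ a, R a) := by nlinarith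
    have hM0 : (0 : ℝ) < 8 * 16 ^ n := by positivity
    refine le_of_mul_le_mul_left ?_ hM0
    rw [hK₁] at s1
    nlinarith

end Vale.Agent.P284.H377
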