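import Vale.Agent.P284.H377.Lin

/-!
# P284, package VL: the flat estimate for vector valued functions and constant metrics
-/

open scoped Manifold ContDiff ComplexOrder Topology Matrix
open MeasureTheory Set Filter
open Vale.Agent.P272.K Vale.Agent.P272.K.INT Vale.Agent.P299.IX

noncomputable section

namespace Vale.Agent.P284.H377

variable {n : ℕ}

theorem integrable_of {P : Set (Cm n)} (hP : IsCompact P) {f : Cm n → ℝ} (hf : ContinuousOn f P)
    (h0 : ∀ z, z ∉ P → f z = 0) : Integrable f := by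
  refine (integrableOn_iff_integrable_of_support_subset (s := P) ?_).1
    (hf.integrableOn_compact hP)
  intro z hz
  by_contra h
  exact hz (h0 z h)

theorem dzb_zero_of {g : Cm n → ℂ} {P : Set (Cm n)} (hg : tsupport g ⊆ P) {z : Cm n}
    (hz : z ∉ P) (b : Fin n) : dzb b g z = 0 := by
  have h0 : g =ᶠ[𝓝 z] fun _ => (0 : ℂ) :=
    notMem_tsupport_iff_eventuallyEq.1 fun h => hz (hg h)
  rw [C2.dzb_congr b h0, C2.dzb_const]

theorem contDiff_dzb {g : Cm n → ℂ} (hg : ContDiff ℝ ∞ g) (b : Fin n) :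
    ContDiff ℝ ∞ (dzb b g) :=
  contDiff_iff_contDiffAt.2 fun z => C2.contDiffAt_dzb b hg.contDiffAt (by norm_num)

theorem tsupport_comp_subset {ι : Type*} {v : Cm n → ι → ℂ} {P : Set (Cm n)}
    (hv : tsupport v ⊆ P) {f : (ι → ℂ) → ℂ} (hf : f 0 = 0) : tsupport (fun z => f (v z)) ⊆ P := by
  refine (closure_mono ?_).trans hv
  intro z hz h0
  rw [Function.mem_support] at hz
  exact hz (by rw [h0, hf])

/-- **the flat estimate for vector valued functions, constant metrics** -/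
theorem FL_vec {ι : Type*} [Fintype ι] [DecidableEq ι] {K₀ C : ℝ} (hFL : FLs n K₀ C)
    (P U : Set (Cm n)) (φ : Cm n → ℝ)
    (W : Matrix (Fin n) (Fin n) ℂ) (G : Matrix ι ι ℂ) (hP : IsCompact P) (hvP : 0 < volume P)
    (hU : IsOpen U) (hPU : P ⊆ U) (hφ : ContDiffOn ℝ ∞ φ U) (hW : W.PosDef)
    (hG : G.PosSemidef)
    (hc : ∀ z ∈ U, ((2 : ℂ) • W - cHess φ z).PosSemidef ∧ ((2 : ℂ) • W + cHess φ z).PosSemidef) :
    ∃ k₀ : ℕ, ∀ k : ℕ, k₀ ≤ k → ∃ (N : ℕ) (h : Fin N → Cm n → ι → ℂ) (K : ℝ),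
      (N : ℝ) ≤ Fintype.card ι * (C * (k : ℝ) ^ n * (W.det.re * (volume P).toReal)) ∧ 0 ≤ K ∧
      (∀ j, Measurable (h j)) ∧ (∀ j, ∃ M : ℝ, ∀ z i, ‖h j z i‖ ≤ M) ∧
      ∀ v : Cm n → ι → ℂ, ContDiff ℝ ∞ v → tsupport v ⊆ P →
        K₀ * k * (∫ z, (pr (G *ᵥ v z) (v z)).re * Real.exp (-(k * φ z))) ≤
          (∫ z, (∑ l, ∑ b, W⁻¹ b l * pr (G *ᵥ DVb b v z) (DVb l v z)).re *
            Real.exp (-(k * φ z))) + K * ∑ j, ‖∫ z, ∑ i, v z i * h j z i‖ ^ 2 := by
  obtain ⟨k₀, hk₀⟩ := FL_lin hFL P U φ W hP hvP hU hPU hφ hW hc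
  obtain ⟨E, hE⟩ := C2.exists_factor hG
  refine ⟨k₀, fun k hk => ?_⟩
  obtain ⟨N, h, K, hN, hK, hm, hb, hg⟩ := hk₀ k hk
  set e := (Fintype.equivFin (ι × Fin N)).symm with he
  refine ⟨Fintype.card (ι × Fin N), fun j z i => E (e j).1 i * h (e j).2 z, K, ?_, hK, ?_, ?_,
    fun v hv hvP => ?_⟩
  · rw [Fintype.card_prod, Fintype.card_fin]
    push_cast
    exact mul_le_mul_of_nonneg_left hN (Nat.cast_nonneg _)
  · intro j
    exact measurable_pi_lambda _ fun i => (hm (e j).2).const_mul _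
  · intro j
    obtain ⟨M, hM⟩ := hb (e j).2
    have hM0 : 0 ≤ M := (norm_nonneg _).trans (hM 0)
    refine ⟨∑ i, ‖E (e j).1 i‖ * M, fun z i => ?_⟩
    rw [norm_mul]
    refine (mul_le_mul_of_nonneg_left (hM z) (norm_nonneg _)).trans ?_
    exact Finset.single_le_sum (f := fun i => ‖E (e j).1 i‖ * M)
      (fun i _ => mul_nonneg (norm_nonneg _) hM0) (Finset.mem_univ i)
  have hprG : ∀ u w : ι → ℂ, pr (G *ᵥ u) w = pr (E *ᵥ u) (E *ᵥ w) := by
    intro u w
    rw [hE, ← Matrix.mulVec_mulVec, pr_mulVec_left, Matrix.conjTranspose_conjTranspose]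
  have hEc : ∀ I, ContDiff ℝ ∞ fun z => (E *ᵥ v z) I := by
    intro I
    simp only [Matrix.mulVec, dotProduct]
    exact ContDiff.sum fun i _ => contDiff_const.mul (contDiff_pi.1 hv i)
  have hEs : ∀ I, tsupport (fun z => (E *ᵥ v z) I) ⊆ P := fun I =>
    tsupport_comp_subset hvP (f := fun u => (E *ᵥ u) I) (by simp)
  have hEd : ∀ I b z, dzb b (fun z => (E *ᵥ v z) I) z = (E *ᵥ DVb b v z) I := by
    intro I b z
    simp only [Matrix.mulVec, dotProduct, DVb]
    rw [C2.dzb_sum b Finset.univ fun i _ =>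
      ((contDiff_const.mul (contDiff_pi.1 hv i)).differentiable (by simp)).differentiableAt]
    refine Finset.sum_congr rfl fun i _ => ?_
    rw [C2.dzb_const_mul b _ (((contDiff_pi.1 hv i)).differentiable (by simp)).differentiableAt]
  have hφc : ContinuousOn (fun z => Real.exp (-(k * φ z))) P :=
    (Real.continuous_exp.comp_continuousOn ((hφ.continuousOn.mono hPU).const_smul (k : ℝ)).neg)
  have i1 : ∀ I, Integrable fun z => ‖(E *ᵥ v z) I‖ ^ 2 * Real.exp (-(k * φ z)) := by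
    intro I
    refine integrable_of hP (((hEc I).continuous.norm.pow 2).continuousOn.mul hφc) ?_
    intro z hz
    have : (E *ᵥ v z) I = 0 :=
      image_eq_zero_of_notMem_tsupport (f := fun z => (E *ᵥ v z) I) fun h => hz (hEs I h)
    rw [this]; simp
  have i2 : ∀ I, Integrable fun z => (∑ l, ∑ b, W⁻¹ b l * dzb b (fun z => (E *ᵥ v z) I) z *
      (starRingEnd ℂ) (dzb l (fun z => (E *ᵥ v z) I) z)).re * Real.exp (-(k * φ z)) := by
    intro I
    refine integrable_of hP (ContinuousOn.mul ?_ hφc) ?_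
    · refine Continuous.continuousOn ?_
      refine Complex.continuous_re.comp (continuous_finsetSum _ fun l _ =>
        continuous_finsetSum _ fun b _ => ?_)
      exact (continuous_const.mul (contDiff_dzb (hEc I) b).continuous).mul
        (Complex.continuous_conj.comp (contDiff_dzb (hEc I) l).continuous)
    · intro z hz
      simp only [dzb_zero_of (hEs I) hz]
      simp
  have key : ∀ I, K₀ * k * (∫ z, ‖(E *ᵥ v z) I‖ ^ 2 * Real.exp (-(k * φ z))) ≤
      (∫ z, (∑ l, ∑ b, W⁻¹ b l * dzb b (fun z => (E *ᵥ v z) I) z *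
        (starRingEnd ℂ) (dzb l (fun z => (E *ᵥ v z) I) z)).re * Real.exp (-(k * φ z))) +
      K * ∑ j, ‖∫ z, (E *ᵥ v z) I * h j z‖ ^ 2 := fun I => hg _ (hEc I) (hEs I)
  have hsum := Finset.sum_le_sum fun I (_ : I ∈ Finset.univ) => key I
  rw [← Finset.mul_sum, Finset.sum_add_distrib, ← Finset.mul_sum,
    ← integral_finsetSum _ fun I _ => i1 I, ← integral_finsetSum _ fun I _ => i2 I] at hsum
  have e1 : ∀ z, ∑ I, ‖(E *ᵥ v z) I‖ ^ 2 * Real.exp (-(k * φ z)) =
      (pr (G *ᵥ v z) (v z)).re * Real.exp (-(k * φ z)) := by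
    intro z
    rw [← Finset.sum_mul, hprG, pr]
    congr 1
    rw [Complex.re_sum]
    refine Finset.sum_congr rfl fun I _ => ?_
    rw [Complex.mul_conj, Complex.ofReal_re, Complex.normSq_eq_norm_sq]
  have e2 : ∀ z, ∑ I, (∑ l, ∑ b, W⁻¹ b l * dzb b (fun z => (E *ᵥ v z) I) z *
        (starRingEnd ℂ) (dzb l (fun z => (E *ᵥ v z) I) z)).re * Real.exp (-(k * φ z)) =
      (∑ l, ∑ b, W⁻¹ b l * pr (G *ᵥ DVb b v z) (DVb l v z)).re * Real.exp (-(k * φ z)) := by
    intro z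
    rw [← Finset.sum_mul, ← Complex.re_sum]
    congr 2
    rw [Finset.sum_comm]
    refine Finset.sum_congr rfl fun l _ => ?_
    rw [Finset.sum_comm]
    refine Finset.sum_congr rfl fun b _ => ?_
    rw [hprG, pr, Finset.mul_sum]
    refine Finset.sum_congr rfl fun I _ => ?_
    rw [hEd, hEd]; ring
  have e3 : ∑ j, ‖∫ z, ∑ i, v z i * (E (e j).1 i * h (e j).2 z)‖ ^ 2 =
      ∑ I, ∑ j, ‖∫ z, (E *ᵥ v z) I * h j z‖ ^ 2 := by
    rw [Equiv.sum_comp e (fun p : ι × Fin N => ‖∫ z, ∑ i, v z i * (E p.1 i * h p.2 z)‖ ^ 2),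
      Fintype.sum_prod_type]
    refine Finset.sum_congr rfl fun I _ => Finset.sum_congr rfl fun j _ => ?_
    congr 3
    funext z
    simp only [Matrix.mulVec, dotProduct, Finset.sum_mul]
    exact Finset.sum_congr rfl fun i _ => by ring
  simp only [e1, e2] at hsum
  rw [e3]
  exact hsum

end Vale.Agent.P284.H377
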